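import Vale.Agent.P083.Free.Main

/-!
P083: the universal unital C*-algebra generated by countably many Cuntz pairs, contractions and
unitaries, with no relation between different generators, is unitally inside the norm ultrapower.
-/

namespace Vale.Agent.Results.P083.FreeCuntzGenerators

open Filter Vale.Agent.P083.Free

universe u v

/-- The universal algebra of countably many Cuntz pairs, contractions and unitaries embeds
unitally into the norm ultrapower of every algebra with a Cuntz pair, in particular of `O₂`. -/
theorem result (B : Type u) [CStarAlgebra B] [Nontrivial B] (t : Fin 2 → B) (ht : IsPair t)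
    (ω : Ultrafilter ℕ) (hω : (ω : Filter ℕ) ≤ atTop) :
    ∃ (A : Type u) (_ : CStarAlgebra A) (g : Sym → A) (ι : A →⋆ₐ[ℂ] UPow B ω),
      IsTuple g ∧ Function.Injective ι ∧ ∀ (C : Type v) [CStarAlgebra C] (h : Sym → C),
        IsTuple h → ∃! φ : A →⋆ₐ[ℂ] C, ∀ x, φ (g x) = h x :=
  exists_universal_embedding.{u, v} ht hω

end Vale.Agent.Results.P083.FreeCuntzGenerators
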