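import Vale.Agent.P083.Kirchberg.Main
import Vale.Agent.P083.Kirchberg.Fock
import Vale.Agent.P083.Kirchberg.Lift
import Vale.Agent.P083.Kirchberg.Extract
import Vale.Agent.P083.Kirchberg.Orbit
import Vale.Agent.P083.Kirchberg.Gap
import Vale.Agent.P083.Kirchberg.Perm
import Vale.Agent.P083.Kirchberg.Endgame
import Vale.Agent.P083.Kirchberg.Model
import Vale.Agent.P083.Kirchberg.Rep
import Vale.Agent.P083.Kirchberg.PairExists

/-!
P083: Kirchberg's embedding problem has a negative answer.
-/

namespace Vale.Agent.Results.P083.KirchbergDisproof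

open Filter Vale.Agent.P083

universe u

/-- There is a separable unital C*-algebra with no unital embedding into the norm ultrapower of
the C*-algebra generated by a Cuntz pair. -/
theorem result :
    (∃ (B : Type) (_ : CStarAlgebra B) (s : Fin 2 → B), Nontrivial B ∧ Free.IsPair s ∧
      Dense (StarAlgebra.adjoin ℂ (Set.range s) : Set B)) ∧
    ∃ (A : Type) (_ : CStarAlgebra A), Nontrivial A ∧ TopologicalSpace.SeparableSpace A ∧
      ∀ (B : Type u) [CStarAlgebra B] [Nontrivial B] (s : Fin 2 → B), Free.IsPair s →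
        Dense (StarAlgebra.adjoin ℂ (Set.range s) : Set B) →
        ∀ ω : Ultrafilter ℕ, (ω : Filter ℕ) ≤ atTop →
          ¬ ∃ φ : A →⋆ₐ[ℂ] Free.UPow B ω, Function.Injective φ :=
  ⟨Kirchberg.pairExists,
    Kirchberg.target.{u} Kirchberg.perm Kirchberg.gap Kirchberg.lift Kirchberg.fock
      (Kirchberg.endgame Kirchberg.gap Kirchberg.lift Kirchberg.perm Kirchberg.orbit)
      (Kirchberg.model Kirchberg.perm) Kirchberg.extract Kirchberg.rep⟩

end Vale.Agent.Results.P083.KirchbergDisproof
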